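import Vale.Agent.P290.H342.Pencil
import Vale.Agent.P267.H821.Section

/-!
# P290, GEO-PENCIL (helper342): pencils from pairs of holomorphic sections

* `Pen.ofSec` : the pencil of two linearly independent holomorphic sections of `(L, α)`;
* `Pen.dv_ne` : its two generators have different divisors.
-/

open Set Filter Topology
open scoped Manifold ContDiff

namespace Vale.Agent.P290.H342

open Vale.Agent.P267 Vale.Agent.P267.FL Vale.Agent.P267.H757 Vale.Agent.P267.H821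

universe u

/-! ### comparison of divisors -/

section cmp

variable {E : Type*} [NormedAddCommGroup E] [NormedSpace ℂ E] [FiniteDimensional ℂ E]
variable {M : Type u} [TopologicalSpace M] [ChartedSpace E M] [IsManifold 𝓘(ℂ, E) ω M]
variable (T : DivTh E M)

omit [FiniteDimensional ℂ E] [IsManifold 𝓘(ℂ, E) ω M] in
theorem Nd_nonneg (D : T.κ →₀ ℕ) (x : M) : 0 ≤ T.Nd D x := (T.nf_Nd D).nonneg x

omit [FiniteDimensional ℂ E] [IsManifold 𝓘(ℂ, E) ω M] in
theorem cl_Nd_dv {N : M → ℝ} (h : IsNormFn E N) : T.cl (T.Nd (T.dv N)) = T.cl N := by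
  obtain ⟨ψ, hψ, hN⟩ := T.dv_spec h
  have : N = fun x => Real.exp (ψ x) * T.Nd (T.dv N) x := funext hN
  conv_rhs => rw [this]
  exact (T.cl_exp_mul (T.nf_Nd _) hψ).symm

/-- if `N` is bounded by a multiple of `N'`, the divisor of `N` contains the divisor of `N'` -/
theorem dv_le_of_le [CompactSpace M] {N N' : M → ℝ} (h : IsNormFn E N) (h' : IsNormFn E N')
    {K : ℝ} (hK : ∀ x, N x ≤ K * N' x) : T.dv N' ≤ T.dv N := by
  classical
  obtain ⟨ψ, hψ, hN⟩ := T.dv_spec h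
  obtain ⟨ψ', hψ', hN'⟩ := T.dv_spec h'
  have hgcd : ∃ G A B : T.κ →₀ ℕ, T.dv N = A + G ∧ T.dv N' = B + G ∧ ∀ C, A C = 0 ∨ B C = 0 :=
    T.toCurves.exists_gcd (T.dv N) (T.dv N')
  obtain ⟨G, A, B, hA, hB, hAB⟩ := hgcd
  have hcA : Continuous (T.Nd A) := (T.nf_Nd A).continuous
  have hcB : Continuous (T.Nd B) := (T.nf_Nd B).continuous
  -- bound for the parts without common curve
  have key : ∀ x, Real.exp (ψ x) * T.Nd A x ≤ K * (Real.exp (ψ' x) * T.Nd B x) := by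
    have hd : Dense {x | T.Nd G x ≠ 0} := (T.nf_Nd G).dense_ne_zero
    have hcl : IsClosed {x | Real.exp (ψ x) * T.Nd A x ≤ K * (Real.exp (ψ' x) * T.Nd B x)} :=
      isClosed_le ((Real.continuous_exp.comp hψ.continuous).mul hcA)
        (continuous_const.mul ((Real.continuous_exp.comp hψ'.continuous).mul hcB))
    intro x
    refine (hcl.closure_subset_iff.2 ?_) (hd x)
    intro y hy
    have h2 := hK y
    have e1 : T.Nd (T.dv N) y = T.Nd A y * T.Nd G y := by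
      rw [← T.Nd_add]; exact congrArg (fun D => T.Nd D y) hA
    have e2 : T.Nd (T.dv N') y = T.Nd B y * T.Nd G y := by
      rw [← T.Nd_add]; exact congrArg (fun D => T.Nd D y) hB
    rw [hN y, hN' y, e1, e2] at h2
    have hG : 0 < T.Nd G y := lt_of_le_of_ne (Nd_nonneg T G y) (Ne.symm hy)
    refine le_of_mul_le_mul_right (a := T.Nd G y) ?_ hG
    linarith
  have hB0 : B = 0 := by
    by_contra hne
    obtain ⟨C, hC⟩ := Finsupp.ne_iff.1 hne
    have hCB : C ∈ B.support := Finsupp.mem_support_iff.2 hC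
    have hCA : A C = 0 := (hAB C).resolve_right hC
    refine T.infinite C ?_
    have : {x | T.N C x = 0} ⊆ ⋃ C' ∈ A.support, ({x | T.N C x = 0} ∩ {x | T.N C' x = 0}) := by
      intro x hx
      have h1 : T.Nd B x = 0 := (T.Nd_eq_zero_iff B x).2 ⟨C, hCB, hx⟩
      have h2 : T.Nd A x = 0 := by
        have h3 := key x
        rw [h1, mul_zero, mul_zero] at h3
        have h4 : 0 ≤ Real.exp (ψ x) * T.Nd A x :=
          mul_nonneg (Real.exp_pos _).le (Nd_nonneg T A x)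
        exact (mul_eq_zero.1 (le_antisymm h3 h4)).resolve_left (Real.exp_pos _).ne'
      obtain ⟨C', hC', hx'⟩ := (T.Nd_eq_zero_iff A x).1 h2
      simp only [mem_iUnion]
      exact ⟨C', hC', hx, hx'⟩
    refine Set.Finite.subset ?_ this
    refine Set.Finite.biUnion (Finset.finite_toSet _) fun C' hC' => ?_
    refine T.finite C C' ?_
    rintro rfl
    exact (Finsupp.mem_support_iff.1 hC') hCA
  rw [hB0, zero_add] at hB
  rw [hB, hA]
  intro C
  rw [Finsupp.add_apply]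
  omega

end cmp

namespace Pen

variable {E : Type*} [NormedAddCommGroup E] [NormedSpace ℂ E] [FiniteDimensional ℂ E]
variable {M : Type u} [TopologicalSpace M] [ChartedSpace E M] [IsManifold 𝓘(ℂ, E) ω M]
variable {T : DivTh E M} {v : T.H} (P : Pen T v)

omit [FiniteDimensional ℂ E] [IsManifold 𝓘(ℂ, E) ω M] in
theorem N_le (a b : ℂ) (x : M) : P.N a b x ≤ 2 * (‖a‖ ^ 2 * P.N 1 0 x + ‖b‖ ^ 2 * P.N 0 1 x) := by
  obtain ⟨U, g0, g1, φ, hx, hl⟩ := P.loc x
  rw [hl.eq a b x hx, hl.eq 1 0 x hx, hl.eq 0 1 x hx]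
  simp only [one_mul, zero_mul, add_zero, zero_add]
  have h1 : ‖a * g0 x + b * g1 x‖ ^ 2 ≤ 2 * (‖a‖ ^ 2 * ‖g0 x‖ ^ 2 + ‖b‖ ^ 2 * ‖g1 x‖ ^ 2) := by
    have h2 : ‖a * g0 x + b * g1 x‖ ≤ ‖a‖ * ‖g0 x‖ + ‖b‖ * ‖g1 x‖ := by
      calc ‖a * g0 x + b * g1 x‖ ≤ ‖a * g0 x‖ + ‖b * g1 x‖ := norm_add_le _ _
        _ = _ := by rw [norm_mul, norm_mul]
    have h3 : 0 ≤ ‖a * g0 x + b * g1 x‖ := norm_nonneg _
    nlinarith [sq_nonneg (‖a‖ * ‖g0 x‖ - ‖b‖ * ‖g1 x‖)]
  have h4 := Real.exp_pos (-φ x)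
  nlinarith [mul_le_mul_of_nonneg_right h1 h4.le]

omit [FiniteDimensional ℂ E] [IsManifold 𝓘(ℂ, E) ω M] in
theorem exists_zero (x : M) (hx : P.N 1 0 x ≠ 0) : ∃ a b, (a ≠ 0 ∨ b ≠ 0) ∧ P.N a b x = 0 := by
  obtain ⟨U, g0, g1, φ, hxU, hl⟩ := P.loc x
  refine ⟨g1 x, -g0 x, Or.inr ?_, ?_⟩
  · intro h0
    rw [neg_eq_zero] at h0
    rw [hl.eq 1 0 x hxU, h0] at hx
    simp at hx
  · rw [hl.eq _ _ x hxU]
    have : g1 x * g0 x + -g0 x * g1 x = 0 := by ring
    rw [this]; simp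

/-- the two generators of a pencil have different divisors -/
theorem dv_ne [CompactSpace M] [Nonempty M]
    (hz : ∀ N : M → ℝ, IsNormFn E N → T.cl N = 0 → ∀ x, N x ≠ 0) :
    T.dv (P.N 1 0) ≠ T.dv (P.N 0 1) := by
  classical
  intro heq
  have n10 := P.nf 1 0 (Or.inl one_ne_zero)
  have n01 := P.nf 0 1 (Or.inr one_ne_zero)
  obtain ⟨ψ, hψ, hN⟩ := T.dv_spec n10
  obtain ⟨ψ', hψ', hN'⟩ := T.dv_spec n01
  -- a point where the first generator does not vanish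
  obtain ⟨x0, hx0⟩ : ∃ x, P.N 1 0 x ≠ 0 := n10.dense_ne_zero.nonempty
  obtain ⟨a, b, hab, hzero⟩ := P.exists_zero x0 hx0
  have nab := P.nf a b hab
  -- bound
  obtain ⟨c, hc⟩ : ∃ c, ∀ x, ψ' x - ψ x ≤ c := by
    obtain ⟨c, hc⟩ := (isCompact_univ (X := M)).bddAbove_image
      ((hψ'.continuous.sub hψ.continuous).continuousOn (s := univ))
    exact ⟨c, fun x => hc ⟨x, mem_univ _, rfl⟩⟩
  have h1 : ∀ x, P.N 0 1 x ≤ Real.exp c * P.N 1 0 x := by
    intro x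
    rw [hN' x, hN x, ← heq, ← mul_assoc, ← Real.exp_add]
    refine mul_le_mul_of_nonneg_right (Real.exp_le_exp.2 ?_) (Nd_nonneg T _ x)
    linarith [hc x]
  have h2 : ∀ x, P.N a b x ≤ 2 * (‖a‖ ^ 2 + ‖b‖ ^ 2 * Real.exp c) * P.N 1 0 x := by
    intro x
    refine (P.N_le a b x).trans ?_
    have := mul_le_mul_of_nonneg_left (h1 x) (sq_nonneg ‖b‖)
    linarith
  have h3 : T.dv (P.N 1 0) ≤ T.dv (P.N a b) := dv_le_of_le T nab n10 h2
  obtain ⟨D, hD⟩ := exists_add_of_le h3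
  have h4 : T.cl (T.Nd D) = 0 := by
    have e1 := cl_Nd_dv T nab
    have e2 : T.Nd (T.dv (P.N a b)) = fun x => T.Nd (T.dv (P.N 1 0)) x * T.Nd D x := by
      rw [hD]; funext x; exact T.Nd_add _ _ x
    rw [e2, T.cl_mul _ _ (T.nf_Nd _) (T.nf_Nd _), cl_Nd_dv T n10, P.cl _ _ hab,
      P.cl _ _ (Or.inl one_ne_zero)] at e1
    simpa using e1
  have h5 := hz _ (T.nf_Nd D) h4 x0
  have h6 : P.N a b x0 ≠ 0 := by
    obtain ⟨ψ2, hψ2, hab2⟩ := T.dv_spec nab
    rw [hab2 x0, hD, T.Nd_add]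
    refine mul_ne_zero (Real.exp_pos _).ne' (mul_ne_zero ?_ h5)
    intro h7
    apply hx0
    rw [hN x0, h7, mul_zero]
  exact h6 hzero

end Pen

/-! ### sections -/

section sec

variable {X : Type} [TopologicalSpace X] [ChartedSpace C2 X] [IsManifold 𝓘(ℂ, C2) ω X]
variable {ι : Type} [Fintype ι] [DecidableEq ι]

/-- `‖a s0 + b s1‖²` -/
noncomputable def pN (s0 s1 : X → EuclideanSpace ℂ ι) (a b : ℂ) (x : X) : ℝ :=
  ‖a • s0 x + b • s1 x‖ ^ 2

omit [TopologicalSpace X] [ChartedSpace C2 X] [IsManifold 𝓘(ℂ, C2) ω X] [DecidableEq ι] in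
theorem coef_lin (e s0 s1 : X → EuclideanSpace ℂ ι) (a b : ℂ) (x : X) :
    coef e (fun x => a • s0 x + b • s1 x) x = a * coef e s0 x + b * coef e s1 x := by
  simp only [coef, inner_add_right, inner_smul_right]
  ring

omit [IsManifold 𝓘(ℂ, C2) ω X] [DecidableEq ι] in
theorem loc0_coef_lin (c : Ch X) (e s0 s1 : X → EuclideanSpace ℂ ι) (a b : ℂ) (z : C2) :
    loc0 0 c (coef e (fun x => a • s0 x + b • s1 x)) z =
      a * loc0 0 c (coef e s0) z + b * loc0 0 c (coef e s1) z := by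
  simp only [loc0, zpow_zero, one_smul, coef_lin]

omit [TopologicalSpace X] [ChartedSpace C2 X] [IsManifold 𝓘(ℂ, C2) ω X] [DecidableEq ι] in
theorem nsqW_pN (s0 s1 : X → EuclideanSpace ℂ ι) (a b : ℂ) :
    nsqW (fun _ => (1 : ℝ)) (fun x => a • s0 x + b • s1 x) = pN s0 s1 a b := by
  funext x
  simp [nsqW, pN]

/-- local representation of the pencil -/
theorem ploc_pN {L : LB X ι} {α : X → Fin 2 → ℂ} {s0 s1 : X → EuclideanSpace ℂ ι}
    (h : ∀ a b : ℂ, (a ≠ 0 ∨ b ≠ 0) → IsSection L α 0 (fun x => a • s0 x + b • s1 x)) (p : X) :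
    ∃ (U : Set X) (g0 g1 : X → ℂ) (φ : X → ℝ), p ∈ U ∧ PLoc C2 (pN s0 s1) U g0 g1 φ := by
  obtain ⟨U, e, hp, hf⟩ := exists_holFrame (h 1 0 (Or.inl one_ne_zero)).hol p
  set c := chartAt C2 p with hcd
  have hc : c ∈ atlas C2 X := chart_mem_atlas C2 p
  have hrep : ∀ a b : ℂ, (a ≠ 0 ∨ b ≠ 0) → LocRep C2 (pN s0 s1 a b) (U ∩ c.source)
      (fun x => a * loc0 0 c (coef e s0) (c x) + b * loc0 0 c (coef e s1) (c x))
      (wt 0 (fun _ => (1 : ℝ)) c e) := by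
    intro a b hab
    have hs := h a b hab
    have h1 := locRep hf hs.reg hs.sec (fun x _ => hs.db x) hs.nz (isWt_one) hc
    rw [nsqW_pN] at h1
    simpa only [loc0_coef_lin] using h1
  refine ⟨U ∩ c.source, fun x => loc0 0 c (coef e s0) (c x), fun x => loc0 0 c (coef e s1) (c x),
    wt 0 (fun _ => (1 : ℝ)) c e, ⟨hp, mem_chart_source C2 p⟩, ?_⟩
  have r10 := hrep 1 0 (Or.inl one_ne_zero)
  have r01 := hrep 0 1 (Or.inr one_ne_zero)
  simp only [one_mul, zero_mul, add_zero, zero_add] at r10 r01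
  refine ⟨r10.isOpen, r10.hol, r01.hol, r10.smooth, ?_⟩
  intro a b x hx
  by_cases hab : a ≠ 0 ∨ b ≠ 0
  · exact (hrep a b hab).eq x hx
  · push Not at hab
    rw [hab.1, hab.2]
    simp [pN]

/-- The pencil of a pair of sections. -/
noncomputable def Pen.ofSec (T : DivTh C2 X) (v : T.H) {L : LB X ι} {α : X → Fin 2 → ℂ}
    {s0 s1 : X → EuclideanSpace ℂ ι}
    (h : ∀ a b : ℂ, (a ≠ 0 ∨ b ≠ 0) → IsSection L α 0 (fun x => a • s0 x + b • s1 x))
    (hcl : ∀ N : X → ℝ, IsNormFn C2 N → H332.cF N = L.chern α → T.cl N = v) : Pen T v where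
  N := pN s0 s1
  loc := ploc_pN h
  nf a b hab := by
    have := (h a b hab).isNormFn_zero
    exact this
  cl a b hab := hcl _ (h a b hab).isNormFn_zero (h a b hab).cF_zero

end sec

end Vale.Agent.P290.H342
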