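import Vale.Agent.P290.H342.UData
import Vale.Agent.P290.H342.PenSec
import Vale.Agent.P290.H342.Hz
import Vale.Agent.P290.H220.Fields
import Vale.Agent.P290.H470.Nf
import Vale.Agent.P267.H62.NFLB
import Vale.Agent.P267.H399.LBCurv
import Vale.Agent.P267.H332.Pair.IntAx

/-!
# P290, LATDEF (helper342): the divisor theory of a compact complex surface with its lattice

`divTh U : DivTh C2 Y` for `U : UData Y N`, unconditional.
-/

set_option linter.unusedSectionVars false

open scoped Manifold ContDiff ComplexConjugate Topology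
open Set

noncomputable section

namespace Vale.Agent.P290.H342

open Vale.Agent.P267.FL Vale.Agent.P267.BlockC Vale.Agent.P267.RR Vale.Agent.P267.H332
open Vale.Agent.P267.H757 Vale.Agent.P267.H821

variable {Y : Type} [TopologicalSpace Y] [ChartedSpace C2 Y] [IsManifold 𝓘(ℂ, C2) ω Y]

theorem lbFacts (Y : Type) [TopologicalSpace Y] [ChartedSpace C2 Y] [IsManifold 𝓘(ℂ, C2) ω Y] :
    LBFacts Y where
  smooth L := L.L.curv_smooth
  closed L := L.L.curv_closed
  tensor L L' := by
    apply TwoF.ext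
    · funext x; exact L.L.F20_tensor L'.L x
    · funext x; ext i j; exact L.L.F11_tensor L'.L x i j
    · funext x; exact L.L.F02_tensor L'.L x
  dual L := by
    apply TwoF.ext
    · funext x; exact L.L.F20_dual x
    · funext x; ext i j; exact L.L.F11_dual x i j
    · funext x; exact L.L.F02_dual x

theorem loc10_conj (e : Ch Y) (a : Y → Fin 2 → ℂ) (z : C2) (i : Fin 2) :
    loc10 e (fun y i => -conj (a y i)) z i = -conj (loc1 0 e a z i) := by
  simp only [loc10, loc1, zpow_zero, smul_eq_mul, map_sum, map_mul,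
    Complex.conj_conj, mul_neg, Finset.sum_neg_distrib, one_mul]

/-- the Chern form of a holomorphic bundle and the curvature of the projector differ by an exact
form -/
theorem chern_exact {ι : Type} [Fintype ι] [DecidableEq ι] {L : LB Y ι} {a : Y → Fin 2 → ℂ}
    (ha : L.IsHol a) : ExactTwo (L.chern a - L.curv) := by
  refine ⟨⟨fun y i => -conj (a y i), a⟩, ⟨?_, ha.smooth⟩, ?_⟩
  · intro e he
    have h := ha.smooth e he
    rw [contDiffOn_pi] at h ⊢
    intro i
    have h1 : (fun z => loc10 e (fun y i => -conj (a y i)) z i) =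
        fun z => -conj (loc1 0 e a z i) := funext fun z => loc10_conj e a z i
    rw [h1]
    exact (Complex.conjCLE.contDiff.comp_contDiffOn (h i)).neg
  · apply TwoF.ext
    · funext x
      simp only [OneF.d, LB.chern, LB.curv, TwoF.f20_sub, Pi.sub_apply, add_sub_cancel_left]
    · funext x
      simp only [OneF.d, LB.chern, LB.curv, TwoF.f11_sub, Pi.sub_apply, add_sub_cancel_left]
      rfl
    · funext x
      simp only [OneF.d, LB.chern, LB.curv, TwoF.f02_sub, Pi.sub_apply, add_sub_cancel_left]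

variable [T2Space Y] [CompactSpace Y]

theorem isNormFn_exp' {φ : Y → ℝ} (hφ : ContMDiff 𝓘(ℝ, C2) 𝓘(ℝ) ∞ φ) :
    IsNormFn C2 (fun x => Real.exp (φ x)) := by
  have := isNormFn_exp (E := C2) (φ := fun x => -φ x) hφ.neg
  simpa using this

/-- every norm function comes from a line bundle -/
theorem nflbY (Y : Type) [TopologicalSpace Y] [ChartedSpace C2 Y] [IsManifold 𝓘(ℂ, C2) ω Y]
    [T2Space Y] [CompactSpace Y] : UData.NFLB Y := by
  intro N' hN
  obtain ⟨r, L, a, s, ψ, ha, hs, hsec, hdb, hψ, heq⟩ := Vale.Agent.P267.H62.nflb N' hN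
  refine ⟨⟨Fin r, L⟩, ?_⟩
  have hE : IsNormFn C2 (fun x => Real.exp (-ψ x)) := isNormFn_exp' hψ.neg
  have hd : Dense {x | s x ≠ 0} := by
    refine hN.dense_ne_zero.mono ?_
    intro x hx h0
    apply hx
    have := heq x
    rw [h0, norm_zero, zero_pow two_ne_zero] at this
    exact (mul_eq_zero.1 this.symm).resolve_right (Real.exp_pos _).ne'
  have h1 := (lbnf ha hs hsec hdb hd).2
  have h2 : (fun x => ‖s x‖ ^ 2) = fun x => N' x * Real.exp (-ψ x) := funext heq
  have h3 : cF (fun x => N' x * Real.exp (-ψ x)) = cF N' + cF (fun x => Real.exp (-ψ x)) := by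
    apply TwoF.ext
    · funext x; simp [cF]
    · funext x; exact curvN_mul hN hE x
    · funext x; simp [cF]
  rw [h2, h3] at h1
  have h4 : cF N' - L.curv = (L.chern a - L.curv) - cF (fun x => Real.exp (-ψ x)) := by
    rw [← h1]; abel
  show ExactTwo (cF N' - L.curv)
  rw [h4]
  exact exact_sub (chern_exact ha) (UData.cF_exp hψ.neg)

variable {N : ℕ} (U : UData Y N)

/-- intersection numbers of norm functions -/
theorem nIP_eq {N₁ N₂ : Y → ℝ} (h₁ : IsNormFn C2 N₁) (h₂ : IsNormFn C2 N₂) :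
    Vale.Agent.P290.H220.nIP N₁ N₂ = (U.B (U.clN N₁) (U.clN N₂) : ℂ) := by
  have hpi : (Real.pi : ℂ) ≠ 0 := by exact_mod_cast Real.pi_ne_zero
  have h := U.pair_of_hasCl (lbFacts Y) intAx (mem_HC_iff.2 ⟨cF_smooth h₁, cF_closed h₁⟩)
    (mem_HC_iff.2 ⟨cF_smooth h₂, cF_closed h₂⟩) (U.clN_spec (nflbY Y) h₁)
    (U.clN_spec (nflbY Y) h₂)
  rw [pair] at h
  rw [Vale.Agent.P290.H220.nIP, h]
  field_simp

theorem nIP_re {N₁ N₂ : Y → ℝ} (h₁ : IsNormFn C2 N₁) (h₂ : IsNormFn C2 N₂) :
    (Vale.Agent.P290.H220.nIP N₁ N₂).re = (U.B (U.clN N₁) (U.clN N₂) : ℝ) := by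
  rw [nIP_eq U h₁ h₂]
  simp

/-- **The divisor theory of a compact complex surface.** -/
def divTh : DivTh C2 Y where
  H := Fin N → ℤ
  B := U.B
  symm := U.B_symm
  cl := U.clN
  cl_mul _ _ h h' := U.clN_mul (nflbY Y) h h'
  cl_exp _ hφ := U.clN_exp (nflbY Y) hφ
  κ := H470.PD Y
  N := H470.NC
  nf := H470.NC_nf
  zero C := by
    have h := C.infinite.nonempty
    rwa [← H470.NC_zeroSet] at h
  finite C C' h := by
    rw [H470.NC_zeroSet, H470.NC_zeroSet]
    exact H470.PD.inter_finite h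
  infinite C := by
    rw [H470.NC_zeroSet]
    exact C.infinite
  factor _ h := H470.nf_factor h
  int_nonneg N₁ N₂ h₁ h₂ hf := by
    have := H220.nIP_nonneg h₁ h₂ hf
    rw [nIP_re U h₁ h₂] at this
    exact_mod_cast this
  int_zero N₁ N₂ h₁ h₂ hf := by
    have := H220.nIP_zero h₁ h₂ hf
    rw [nIP_eq U h₁ h₂] at this
    exact_mod_cast this
  int_one N₁ N₂ h₁ h₂ hf p hp hp' := by
    have := H220.one_le_nIP h₁ h₂ hf p hp hp'
    rw [nIP_re U h₁ h₂] at this
    exact_mod_cast this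
  int_two N₁ N₂ h₁ h₂ hf p hp hp' := by
    have := H220.two_le_nIP h₁ h₂ hf p hp hp'
    rw [nIP_re U h₁ h₂] at this
    exact_mod_cast this
  int_four N₁ N₂ h₁ h₂ hf p hp hp' := by
    have := H220.four_le_nIP h₁ h₂ hf p hp hp'
    rw [nIP_re U h₁ h₂] at this
    exact_mod_cast this

/-- norm functions with the same weights have the same class -/
theorem clN_of_weight {N₁ N₂ : Y → ℝ} (h : ∀ p, ∃ (V : Set Y) (g g' : Y → ℂ) (φ : Y → ℝ),
    p ∈ V ∧ LocRep C2 N₁ V g φ ∧ LocRep C2 N₂ V g' φ) : U.clN N₁ = U.clN N₂ := by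
  have h1 : cF N₁ = cF N₂ := by
    apply TwoF.ext
    · rfl
    · funext x
      obtain ⟨V, g, g', φ, hx, r, r'⟩ := h x
      show curvN N₁ x = curvN N₂ x
      rw [curvN_eq r hx, curvN_eq r' hx]
    · rfl
  unfold UData.clN
  rw [h1]

/-- a norm function of class zero has no zeros -/
theorem ne_zero_of_clN [PreconnectedSpace Y] (hS : DbarSolve Y) {N' : Y → ℝ}
    (h : IsNormFn C2 N') (h0 : U.clN N' = 0) : ∀ x, N' x ≠ 0 := by
  have h1 := U.clN_spec (nflbY Y) h
  rw [h0] at h1
  obtain ⟨A, hA, hd⟩ := h1.exact_of_zero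
  exact ne_zero_of_exact hS h hA hd

end Vale.Agent.P290.H342
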