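import Vale.Agent.P267.H283.BlockC
import Vale.Agent.P267.H332.Pair.Pair
import Vale.Agent.P267.H469.Inst

/-!
# P290, LATDEF (helper342): the concrete lattice of a compact complex surface

`UData Y N` : the data of `BlockC.Unimod Y N`. The lattice is `Fin N → ℤ`, the class `k` being
represented by `U.comb k = ∑ k_i curv E_i` (so `c₁ = (i/2π) comb k`), with the unimodular form
`U.B k l = kᵀ G l`. `U.HasCl F k` : the closed form `F` is `comb k` up to an exact form.
-/

set_option linter.unusedSectionVars false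
set_option linter.unusedVariables false

open scoped Manifold ContDiff ComplexConjugate Matrix
open Set

noncomputable section

namespace Vale.Agent.P290.H342

open Vale.Agent.P267.FL Vale.Agent.P267.BlockC Vale.Agent.P267.RR Vale.Agent.P267.H332
open Vale.Agent.P267.H757

/-! ### exact forms -/

section exact

variable {Y : Type*} [TopologicalSpace Y] [ChartedSpace C2 Y] [IsManifold 𝓘(ℂ, C2) ω Y]

/-- a smooth one-form in helper469's space -/
def om1 (A : OneF Y) (hA : A.Smooth) : Vale.Agent.P267.H469.Om1 Y := (⟨A.f10, hA.s10⟩, ⟨A.f01, hA.s01⟩)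

theorem toF_D1 (A : OneF Y) (hA : A.Smooth) :
    Vale.Agent.P267.H469.toF (Vale.Agent.P267.H469.D1 (om1 A hA)) = A.d := rfl

theorem exactTwo_iff {F : TwoF Y} :
    ExactTwo F ↔ ∃ A : Vale.Agent.P267.H469.Om1 Y, Vale.Agent.P267.H469.toF (Vale.Agent.P267.H469.D1 A) = F := by
  constructor
  · rintro ⟨A, hA, rfl⟩
    exact ⟨om1 A hA, rfl⟩
  · rintro ⟨A, rfl⟩
    exact ⟨⟨A.1, A.2⟩, ⟨A.1.2, A.2.2⟩, rfl⟩

theorem toF_add (F G : Vale.Agent.P267.H469.Om2 Y) :
    Vale.Agent.P267.H469.toF (F + G) = Vale.Agent.P267.H469.toF F + Vale.Agent.P267.H469.toF G := rfl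

theorem toF_smul (c : ℂ) (G : Vale.Agent.P267.H469.Om2 Y) :
    Vale.Agent.P267.H469.toF (c • G) = c • Vale.Agent.P267.H469.toF G := rfl

theorem exact_add {F G : TwoF Y} (hF : ExactTwo F) (hG : ExactTwo G) : ExactTwo (F + G) := by
  rw [exactTwo_iff] at *
  obtain ⟨A, rfl⟩ := hF
  obtain ⟨A', rfl⟩ := hG
  exact ⟨A + A', by rw [map_add]; rfl⟩

theorem exact_smul (c : ℂ) {F : TwoF Y} (hF : ExactTwo F) : ExactTwo (c • F) := by
  rw [exactTwo_iff] at *
  obtain ⟨A, rfl⟩ := hF
  exact ⟨c • A, by rw [map_smul]; rfl⟩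

theorem exactTwo_zero : ExactTwo (0 : TwoF Y) := by
  rw [exactTwo_iff]
  exact ⟨0, by rw [map_zero]; rfl⟩

theorem exact_neg {F : TwoF Y} (hF : ExactTwo F) : ExactTwo (-F) := by
  have := exact_smul (-1) hF
  rwa [neg_one_smul] at this

theorem exact_sub {F G : TwoF Y} (hF : ExactTwo F) (hG : ExactTwo G) : ExactTwo (F - G) := by
  have := exact_add hF (exact_neg hG)
  rwa [← sub_eq_add_neg] at this

end exact

/-! ### closed forms, integrals -/

section cl

variable {Y : Type*} [TopologicalSpace Y] [ChartedSpace C2 Y]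

/-- on a compact surface `HC Y` is the space of all smooth closed forms -/
theorem mem_HC_iff [CompactSpace Y] {F : TwoF Y} : F ∈ HC Y ↔ F.Smooth ∧ F.Closed :=
  ⟨fun h => ⟨h.1, h.2.1⟩, fun h => ⟨h.1, h.2, isClosed_closure.isCompact⟩⟩

variable [CompactSpace Y] (hI : IntAx Y)

include hI in
theorem intX_add {b b' : Y → ℂ} (hb : Reg2 ∞ 1 b) (hb' : Reg2 ∞ 1 b') :
    intX (fun x => b x + b' x) = intX b + intX b' :=
  hI.add b b' hb hb' (HasCompactSupport.of_compactSpace b) (HasCompactSupport.of_compactSpace b')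

/-- the bilinear pairing on smooth forms -/
theorem wedge_add_left (F F' G : TwoF Y) : (F + F').wedge G = fun x => F.wedge G x + F'.wedge G x := by
  funext x
  simp only [TwoF.wedge, TwoF.f20_add, TwoF.f11_add, TwoF.f02_add, Pi.add_apply, Matrix.add_apply]
  ring

theorem wedge_smul_left (c : ℂ) (F G : TwoF Y) : (c • F).wedge G = fun x => c * F.wedge G x := by
  funext x
  simp only [TwoF.wedge, TwoF.f20_smul, TwoF.f11_smul, TwoF.f02_smul, Pi.smul_apply,
    Matrix.smul_apply, smul_eq_mul]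
  ring

include hI in
theorem pair_add_left {F F' G : TwoF Y} (hF : F.Smooth) (hF' : F'.Smooth) (hG : G.Smooth) :
    pair (F + F') G = pair F G + pair F' G := by
  rw [pair, wedge_add_left]
  exact intX_add hI (reg2_wedge hF hG) (reg2_wedge hF' hG)

include hI in
theorem pair_smul_left (c : ℂ) {F G : TwoF Y} (hF : F.Smooth) (hG : G.Smooth) :
    pair (c • F) G = c * pair F G := by
  rw [pair, wedge_smul_left]
  exact hI.smul c _ (reg2_wedge hF hG) (HasCompactSupport.of_compactSpace _)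

theorem pair_comm (F G : TwoF Y) : pair F G = pair G F := by
  rw [pair, pair, wedge_comm']

include hI in
theorem pair_exact {F G : TwoF Y} (hF : ExactTwo F) (hG : G ∈ HC Y) : pair F G = 0 := by
  obtain ⟨A, hA, rfl⟩ := hF
  exact hI.stokes A G hA isClosed_closure.isCompact hG.1 hG.2.1

end cl

/-! ### facts on line bundles -/

/-- facts on the curvature of line bundles (LBCalc of helper399) -/
structure LBFacts (Y : Type) [TopologicalSpace Y] [ChartedSpace C2 Y] : Prop where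
  smooth : ∀ L : ALB Y, L.L.curv.Smooth
  closed : ∀ L : ALB Y, L.L.curv.Closed
  tensor : ∀ L L' : ALB Y, (L.L.tensor L'.L).curv = L.L.curv + L'.L.curv
  dual : ∀ L : ALB Y, L.L.dual.curv = -L.L.curv

/-! ### the lattice -/

/-- the data of `BlockC.Unimod Y N` -/
structure UData (Y : Type) [TopologicalSpace Y] [ChartedSpace C2 Y] (N : ℕ) where
  E : Fin N → ALB Y
  G : Matrix (Fin N) (Fin N) ℤ
  isec_eq : ∀ i j, isec (E i).L (E j).L = G i j
  unit : IsUnit G.det
  span : ∀ F : TwoF Y, F.Smooth → F.Closed →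
    ∃! t : Fin N → ℂ, ExactTwo (F - ∑ i, t i • (E i).L.curv)
  mem : ∀ L : ALB Y, ∃ k : Fin N → ℤ, ExactTwo (L.L.curv - ∑ i, (k i : ℂ) • (E i).L.curv)
  surj : ∀ k : Fin N → ℤ, ∃ L : ALB Y, ExactTwo (L.L.curv - ∑ i, (k i : ℂ) • (E i).L.curv)

theorem nonempty_uData_iff {Y : Type} [TopologicalSpace Y] [ChartedSpace C2 Y] {N : ℕ} :
    Nonempty (UData Y N) ↔ Unimod Y N :=
  ⟨fun ⟨U⟩ => ⟨U.E, U.G, U.isec_eq, U.unit, U.span, U.mem, U.surj⟩,
    fun ⟨E, G, h1, h2, h3, h4, h5⟩ => ⟨⟨E, G, h1, h2, h3, h4, h5⟩⟩⟩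

namespace UData

variable {Y : Type} [TopologicalSpace Y] [ChartedSpace C2 Y] {N : ℕ} (U : UData Y N)

/-- the form `∑ k_i curv E_i`, complex coefficients -/
def combC (t : Fin N → ℂ) : TwoF Y := ∑ i, t i • (U.E i).L.curv

/-- the form `∑ k_i curv E_i` -/
def comb (k : Fin N → ℤ) : TwoF Y := U.combC fun i => (k i : ℂ)

theorem combC_add (s t : Fin N → ℂ) : U.combC (s + t) = U.combC s + U.combC t := by
  simp only [combC, Pi.add_apply, add_smul, Finset.sum_add_distrib]

theorem combC_smul (c : ℂ) (t : Fin N → ℂ) : U.combC (c • t) = c • U.combC t := by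
  simp only [combC, Pi.smul_apply, smul_eq_mul, mul_smul, Finset.smul_sum]

theorem comb_add (k l : Fin N → ℤ) : U.comb (k + l) = U.comb k + U.comb l := by
  rw [comb, comb, comb, ← combC_add]
  congr 1
  funext i
  simp

theorem comb_zero : U.comb 0 = 0 := by simp [comb, combC]

theorem comb_neg (k : Fin N → ℤ) : U.comb (-k) = -U.comb k := by
  have := U.comb_add k (-k)
  rw [add_neg_cancel, comb_zero] at this
  exact (neg_eq_of_add_eq_zero_right this.symm).symm

variable (hL : LBFacts Y)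

include hL in
theorem combC_mem [CompactSpace Y] (t : Fin N → ℂ) : U.combC t ∈ HC Y :=
  Submodule.sum_mem _ fun i _ => Submodule.smul_mem _ _
    (mem_HC_iff.2 ⟨hL.smooth _, hL.closed _⟩)

include hL in
theorem comb_mem [CompactSpace Y] (k : Fin N → ℤ) : U.comb k ∈ HC Y := U.combC_mem hL _

/-- `F` has the class `k` -/
def HasCl (F : TwoF Y) (k : Fin N → ℤ) : Prop := ExactTwo (F - U.comb k)

variable [IsManifold 𝓘(ℂ, C2) ω Y]

theorem hasCl_comb (k : Fin N → ℤ) : U.HasCl (U.comb k) k := by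
  rw [HasCl, sub_self]; exact exactTwo_zero

variable {U}

theorem HasCl.add {F F' : TwoF Y} {k k' : Fin N → ℤ} (h : U.HasCl F k) (h' : U.HasCl F' k') :
    U.HasCl (F + F') (k + k') := by
  have := exact_add h h'
  rw [HasCl, comb_add]
  convert this using 1
  abel

theorem HasCl.neg {F : TwoF Y} {k : Fin N → ℤ} (h : U.HasCl F k) : U.HasCl (-F) (-k) := by
  have := exact_neg h
  rw [HasCl, comb_neg]
  convert this using 1
  abel

theorem HasCl.sub {F F' : TwoF Y} {k k' : Fin N → ℤ} (h : U.HasCl F k) (h' : U.HasCl F' k') :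
    U.HasCl (F - F') (k - k') := by
  rw [sub_eq_add_neg, sub_eq_add_neg]
  exact h.add h'.neg

theorem HasCl.congr {F F' : TwoF Y} {k : Fin N → ℤ} (h : U.HasCl F k) (hF : ExactTwo (F' - F)) :
    U.HasCl F' k := by
  have := exact_add hF h
  rw [HasCl]
  convert this using 1
  abel

theorem hasCl_of_exact {F : TwoF Y} (hF : ExactTwo F) : U.HasCl F 0 := by
  rw [HasCl, comb_zero, sub_zero]; exact hF

theorem HasCl.exact_of_zero {F : TwoF Y} (h : U.HasCl F 0) : ExactTwo F := by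
  rw [HasCl, comb_zero, sub_zero] at h; exact h

theorem HasCl.unique {F : TwoF Y} (hF : F.Smooth) (hc : F.Closed) {k k' : Fin N → ℤ}
    (h : U.HasCl F k) (h' : U.HasCl F k') : k = k' := by
  obtain ⟨t, -, ht⟩ := U.span F hF hc
  have h1 := ht _ h
  have h2 := ht _ h'
  have h3 := h1.trans h2.symm
  funext i
  exact_mod_cast congrFun h3 i

theorem HasCl.eq_iff {F F' : TwoF Y} (hF' : F'.Smooth) (hc' : F'.Closed) (hF : F.Smooth)
    (hc : F.Closed) {k k' : Fin N → ℤ} (h : U.HasCl F k) (h' : U.HasCl F' k') :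
    k = k' ↔ ExactTwo (F - F') := by
  constructor
  · rintro rfl
    have := h.sub h'
    rw [sub_self] at this
    exact this.exact_of_zero
  · intro he
    exact HasCl.unique hF hc h (h'.congr he)

variable (U)

/-! ### the intersection form -/

omit [IsManifold 𝓘(ℂ, C2) ω Y] in
/-- the intersection number -/
def b (k l : Fin N → ℤ) : ℤ := ∑ i, ∑ j, k i * U.G i j * l j

omit [IsManifold 𝓘(ℂ, C2) ω Y] in
theorem b_add_left (k k' l : Fin N → ℤ) : U.b (k + k') l = U.b k l + U.b k' l := by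
  simp only [b, Pi.add_apply, ← Finset.sum_add_distrib]
  exact Finset.sum_congr rfl fun i _ => Finset.sum_congr rfl fun j _ => by ring

omit [IsManifold 𝓘(ℂ, C2) ω Y] in
theorem b_add_right (k l l' : Fin N → ℤ) : U.b k (l + l') = U.b k l + U.b k l' := by
  simp only [b, Pi.add_apply, ← Finset.sum_add_distrib]
  exact Finset.sum_congr rfl fun i _ => Finset.sum_congr rfl fun j _ => by ring

omit [IsManifold 𝓘(ℂ, C2) ω Y] in
/-- the intersection form -/
def B : (Fin N → ℤ) →+ (Fin N → ℤ) →+ ℤ where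
  toFun k :=
    { toFun := U.b k
      map_zero' := by simp [b]
      map_add' := U.b_add_right k }
  map_zero' := by ext l; simp [b]
  map_add' k k' := by ext l; exact U.b_add_left k k' _

omit [IsManifold 𝓘(ℂ, C2) ω Y] in
theorem B_apply (k l : Fin N → ℤ) : U.B k l = ∑ i, ∑ j, k i * U.G i j * l j := rfl

omit [IsManifold 𝓘(ℂ, C2) ω Y] in
theorem isec_comm {ι ι' : Type} [Fintype ι] [DecidableEq ι] [Fintype ι'] [DecidableEq ι']
    (L : LB Y ι) (L' : LB Y ι') : isec L L' = isec L' L := by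
  rw [isec, isec, wedge_comm']

omit [IsManifold 𝓘(ℂ, C2) ω Y] in
theorem G_symm (i j : Fin N) : U.G i j = U.G j i := by
  have h := U.isec_eq i j
  rw [isec_comm, U.isec_eq j i] at h
  exact_mod_cast h.symm

omit [IsManifold 𝓘(ℂ, C2) ω Y] in
theorem B_symm (k l : Fin N → ℤ) : U.B k l = U.B l k := by
  rw [B_apply, B_apply, Finset.sum_comm]
  exact Finset.sum_congr rfl fun i _ => Finset.sum_congr rfl fun j _ => by
    rw [U.G_symm j i]; ring

omit [IsManifold 𝓘(ℂ, C2) ω Y] in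
/-- **Unimodularity** -/
theorem unimod (f : (Fin N → ℤ) →+ ℤ) : ∃ k, ∀ l, f l = U.B k l := by
  -- `k = f(e_j) G⁻¹`
  refine ⟨(fun j => f (Pi.single j 1)) ᵥ* U.G⁻¹, fun l => ?_⟩
  have h1 : ∀ k : Fin N → ℤ, U.B k l = (k ᵥ* U.G) ⬝ᵥ l := by
    intro k
    rw [B_apply, dotProduct, Finset.sum_comm]
    refine Finset.sum_congr rfl fun j _ => ?_
    rw [Matrix.vecMul, dotProduct, Finset.sum_mul]
  rw [h1, Matrix.vecMul_vecMul, Matrix.nonsing_inv_mul _ U.unit, Matrix.vecMul_one, dotProduct]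
  have h2 : l = ∑ j, l j • (Pi.single j (1 : ℤ) : Fin N → ℤ) := by
    funext i
    simp [Finset.sum_apply, Pi.single_apply]
  conv_lhs => rw [h2]
  rw [map_sum]
  refine Finset.sum_congr rfl fun j _ => ?_
  rw [map_zsmul, smul_eq_mul, mul_comm]

omit [IsManifold 𝓘(ℂ, C2) ω Y] in
theorem nondeg (k : Fin N → ℤ) (h : ∀ l, U.B k l = 0) : k = 0 := by
  have h1 : k ᵥ* U.G = 0 := by
    funext j
    have := h (Pi.single j 1)
    rw [B_apply] at this
    simpa [Matrix.vecMul, dotProduct, Pi.single_apply] using this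
  have h2 : k ᵥ* (U.G * U.G⁻¹) = 0 := by rw [← Matrix.vecMul_vecMul, h1, Matrix.zero_vecMul]
  rwa [Matrix.mul_nonsing_inv _ U.unit, Matrix.vecMul_one] at h2

/-! ### pairings -/

section pairing

variable [CompactSpace Y] (hI : IntAx Y) (hL : LBFacts Y)

include hI hL in
omit [IsManifold 𝓘(ℂ, C2) ω Y] in
theorem pair_combC_left (t : Fin N → ℂ) {F : TwoF Y} (hF : F.Smooth) :
    pair (U.combC t) F = ∑ i, t i * pair (U.E i).L.curv F := by
  have key : ∀ S : Finset (Fin N), (∑ i ∈ S, t i • (U.E i).L.curv).Smooth ∧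
      pair (∑ i ∈ S, t i • (U.E i).L.curv) F = ∑ i ∈ S, t i * pair (U.E i).L.curv F := by
    intro S
    induction S using Finset.induction_on with
    | empty =>
      refine ⟨by simpa using (HC Y).zero_mem.1, ?_⟩
      have h0 := pair_smul_left hI 0 (HC Y).zero_mem.1 hF
      rw [zero_smul, zero_mul] at h0
      simpa using h0
    | insert i S hi ih =>
      rw [Finset.sum_insert hi, Finset.sum_insert hi]
      have h1 : (t i • (U.E i).L.curv).Smooth := TwoF_smooth_smul _ (hL.smooth _)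
      exact ⟨TwoF_smooth_add h1 ih.1, by
        rw [pair_add_left hI h1 ih.1 hF, ih.2, pair_smul_left hI _ (hL.smooth _) hF]⟩
  exact (key Finset.univ).2

include hI hL in
omit [IsManifold 𝓘(ℂ, C2) ω Y] in
theorem pair_combC (t t' : Fin N → ℂ) : pair (U.combC t) (U.combC t') =
    -(4 * (Real.pi : ℂ) ^ 2) * ∑ i, ∑ j, t i * (U.G i j : ℂ) * t' j := by
  have hpi : (Real.pi : ℂ) ≠ 0 := by exact_mod_cast Real.pi_ne_zero
  have h1 : ∀ i j, pair (U.E i).L.curv (U.E j).L.curv =
      -(4 * (Real.pi : ℂ) ^ 2) * (U.G i j : ℂ) := by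
    intro i j
    have h := U.isec_eq i j
    rw [isec] at h
    rw [← h, pair]
    field_simp
  rw [U.pair_combC_left hL hI t (U.combC_mem hL t').1, Finset.mul_sum]
  refine Finset.sum_congr rfl fun i _ => ?_
  rw [pair_comm, U.pair_combC_left hL hI t' (hL.smooth _), Finset.mul_sum, Finset.mul_sum]
  refine Finset.sum_congr rfl fun j _ => ?_
  rw [h1, U.G_symm]
  ring

include hI hL in
omit [IsManifold 𝓘(ℂ, C2) ω Y] in
theorem pair_comb (k l : Fin N → ℤ) : pair (U.comb k) (U.comb l) =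
    -(4 * (Real.pi : ℂ) ^ 2) * (U.B k l : ℂ) := by
  rw [comb, comb, U.pair_combC hL hI, B_apply]
  push_cast
  rfl

include hI hL in
/-- the intersection form computes the integrals -/
theorem pair_of_hasCl {F F' : TwoF Y} (hF : F ∈ HC Y) (hF' : F' ∈ HC Y) {k k' : Fin N → ℤ}
    (h : U.HasCl F k) (h' : U.HasCl F' k') :
    pair F F' = -(4 * (Real.pi : ℂ) ^ 2) * (U.B k k' : ℂ) := by
  have hk := U.comb_mem hL k
  have hk' := U.comb_mem hL k'
  have hneg : ∀ {A : TwoF Y}, A.Smooth → (-A).Smooth := fun {A} hA => by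
    have := TwoF_smooth_smul (-1) hA
    rwa [neg_one_smul] at this
  have e1 : pair F F' = pair (U.comb k) F' := by
    have h1 := pair_exact hI h hF'
    have h2 : F = (F - U.comb k) + U.comb k := by abel
    conv_lhs => rw [h2]
    rw [pair_add_left hI (by rw [sub_eq_add_neg]; exact TwoF_smooth_add hF.1 (hneg hk.1)) hk.1
      hF'.1, h1, zero_add]
  have e2 : pair (U.comb k) F' = pair (U.comb k) (U.comb k') := by
    have h1 := pair_exact hI h' hk
    have h2 : F' = (F' - U.comb k') + U.comb k' := by abel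
    rw [pair_comm]
    conv_lhs => rw [h2]
    rw [pair_add_left hI (by rw [sub_eq_add_neg]; exact TwoF_smooth_add hF'.1 (hneg hk'.1)) hk'.1
      hk.1, h1, zero_add, pair_comm]
  rw [e1, e2, U.pair_comb hL hI]

end pairing

/-! ### Chern classes -/

/-- the Chern class of a line bundle -/
def c1 (L : ALB Y) : Fin N → ℤ := (U.mem L).choose

theorem c1_spec (L : ALB Y) : U.HasCl L.L.curv (U.c1 L) := (U.mem L).choose_spec

theorem c1_eq (hL : LBFacts Y) (L : ALB Y) {k : Fin N → ℤ} (h : U.HasCl L.L.curv k) :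
    U.c1 L = k := HasCl.unique (hL.smooth L) (hL.closed L) (U.c1_spec L) h

theorem c1_eq_iff (hL : LBFacts Y) (L L' : ALB Y) :
    U.c1 L = U.c1 L' ↔ ExactTwo (L.L.curv - L'.L.curv) :=
  HasCl.eq_iff (hL.smooth L') (hL.closed L') (hL.smooth L) (hL.closed L) (U.c1_spec L) (U.c1_spec L')

theorem c1_tensor (hL : LBFacts Y) (L L' : ALB Y) :
    U.c1 ⟨L.ι × L'.ι, L.L.tensor L'.L⟩ = U.c1 L + U.c1 L' := by
  apply U.c1_eq hL
  show U.HasCl (L.L.tensor L'.L).curv _
  rw [hL.tensor]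
  exact (U.c1_spec L).add (U.c1_spec L')

theorem c1_dual (hL : LBFacts Y) (L : ALB Y) : U.c1 ⟨L.ι, L.L.dual⟩ = -U.c1 L := by
  apply U.c1_eq hL
  show U.HasCl L.L.dual.curv _
  rw [hL.dual]
  exact (U.c1_spec L).neg

theorem exists_c1 (hL : LBFacts Y) (k : Fin N → ℤ) : ∃ L : ALB Y, U.c1 L = k := by
  obtain ⟨L, h⟩ := U.surj k
  exact ⟨L, U.c1_eq hL L h⟩

theorem isec_c1 [CompactSpace Y] (hI : IntAx Y) (hL : LBFacts Y) (L L' : ALB Y) :
    isec L.L L'.L = (U.B (U.c1 L) (U.c1 L') : ℂ) := by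
  have hpi : (Real.pi : ℂ) ≠ 0 := by exact_mod_cast Real.pi_ne_zero
  have h := U.pair_of_hasCl hL hI (mem_HC_iff.2 ⟨hL.smooth L, hL.closed L⟩)
    (mem_HC_iff.2 ⟨hL.smooth L', hL.closed L'⟩) (U.c1_spec L) (U.c1_spec L')
  rw [isec]
  rw [pair] at h
  rw [h]
  field_simp

/-! ### classes of norm functions -/

open Classical in
/-- the class of a norm function: `cF N' = ∂∂̄φ` is `comb k` up to an exact form -/
def clN (N' : Y → ℝ) : Fin N → ℤ := if h : ∃ k, U.HasCl (cF N') k then h.choose else 0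

/-- every norm function comes from a line bundle -/
def NFLB (Y : Type) [TopologicalSpace Y] [ChartedSpace C2 Y] : Prop :=
  ∀ N' : Y → ℝ, IsNormFn C2 N' → ∃ L : ALB Y, ExactTwo (cF N' - L.L.curv)

theorem clN_spec (hN : NFLB Y) {N' : Y → ℝ} (h : IsNormFn C2 N') : U.HasCl (cF N') (U.clN N') := by
  have hex : ∃ k, U.HasCl (cF N') k := by
    obtain ⟨L, hL⟩ := hN N' h
    exact ⟨U.c1 L, (U.c1_spec L).congr hL⟩
  rw [clN, dif_pos hex]
  exact hex.choose_spec

theorem clN_eq (hN : NFLB Y) {N' : Y → ℝ} (h : IsNormFn C2 N') {k : Fin N → ℤ}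
    (hk : U.HasCl (cF N') k) : U.clN N' = k :=
  HasCl.unique (cF_smooth h) (cF_closed h) (U.clN_spec hN h) hk

theorem clN_mul (hN : NFLB Y) {N₁ N₂ : Y → ℝ} (h₁ : IsNormFn C2 N₁) (h₂ : IsNormFn C2 N₂) :
    U.clN (fun x => N₁ x * N₂ x) = U.clN N₁ + U.clN N₂ := by
  apply U.clN_eq hN (h₁.mul h₂)
  have h := (U.clN_spec hN h₁).add (U.clN_spec hN h₂)
  have e : cF (fun x => N₁ x * N₂ x) = cF N₁ + cF N₂ := by
    apply TwoF.ext
    · funext x; simp [cF]
    · funext x; exact curvN_mul h₁ h₂ x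
    · funext x; simp [cF]
  rw [e]
  exact h

theorem cF_exp {φ : Y → ℝ} (hφ : ContMDiff 𝓘(ℝ, C2) 𝓘(ℝ) ∞ φ) :
    ExactTwo (cF (fun x => Real.exp (φ x))) := by
  refine ⟨dbarF (fun x => -φ x), dbarF_smooth hφ.neg, ?_⟩
  have hloc : LocRep C2 (fun x => Real.exp (φ x)) univ (fun _ => (1 : ℂ)) (fun x => -φ x) := by
    have := locRep_exp (E := C2) isOpen_univ (φ := fun x => -φ x) hφ.neg.contMDiffOn
    simpa using this
  apply TwoF.ext
  · funext x; rw [dbarF_d_f20]; rfl
  · funext x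
    rw [dbarF_d_f11]
    symm
    exact curvN_eq_ddb hloc (mem_univ x)
  · funext x; rw [dbarF_d_f02 hφ.neg]; rfl

theorem clN_exp (hN : NFLB Y) {φ : Y → ℝ} (hφ : ContMDiff 𝓘(ℝ, C2) 𝓘(ℝ) ∞ φ) :
    U.clN (fun x => Real.exp (φ x)) = 0 := by
  have h1 : IsNormFn C2 (fun x => Real.exp (φ x)) := by
    have := isNormFn_exp (E := C2) (φ := fun x => -φ x) hφ.neg
    simpa using this
  exact U.clN_eq hN h1 (hasCl_of_exact (cF_exp hφ))

/-! ### constructor from the weak spanning property -/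

section weak

variable [CompactSpace Y] (hI : IntAx Y) (hL : LBFacts Y) {N : ℕ} (E : Fin N → ALB Y)
  (G : Matrix (Fin N) (Fin N) ℤ) (hG : ∀ i j, isec (E i).L (E j).L = G i j) (hu : IsUnit G.det)

include hI hL hG hu in
/-- the classes of the `E i` are linearly independent -/
theorem eq_zero_of_exact {t : Fin N → ℂ} (ht : ExactTwo (∑ i, t i • (E i).L.curv)) : t = 0 := by
  have hpi : (Real.pi : ℂ) ≠ 0 := by exact_mod_cast Real.pi_ne_zero
  have hsum : ∀ (S : Finset (Fin N)) (F : TwoF Y), F.Smooth →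
      (∑ i ∈ S, t i • (E i).L.curv).Smooth ∧
      pair (∑ i ∈ S, t i • (E i).L.curv) F = ∑ i ∈ S, t i * pair (E i).L.curv F := by
    intro S F hF
    induction S using Finset.induction_on with
    | empty =>
      refine ⟨by simpa using (HC Y).zero_mem.1, ?_⟩
      have h0 := pair_smul_left hI 0 (HC Y).zero_mem.1 hF
      rw [zero_smul, zero_mul] at h0
      simpa using h0
    | insert i S hi ih =>
      rw [Finset.sum_insert hi, Finset.sum_insert hi]
      have h1 : (t i • (E i).L.curv).Smooth := TwoF_smooth_smul _ (hL.smooth _)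
      exact ⟨TwoF_smooth_add h1 ih.1, by
        rw [pair_add_left hI h1 ih.1 hF, ih.2, pair_smul_left hI _ (hL.smooth _) hF]⟩
  have h1 : t ᵥ* (G.map (Int.cast : ℤ → ℂ)) = 0 := by
    funext j
    have h2 := pair_exact hI ht (mem_HC_iff.2 ⟨hL.smooth (E j), hL.closed (E j)⟩)
    rw [(hsum Finset.univ _ (hL.smooth (E j))).2] at h2
    have h3 : ∀ i, pair (E i).L.curv (E j).L.curv = -(4 * (Real.pi : ℂ) ^ 2) * (G i j : ℂ) := by
      intro i
      have h := hG i j
      rw [isec] at h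
      rw [← h, pair]
      field_simp
    simp only [h3] at h2
    have h4 : -(4 * (Real.pi : ℂ) ^ 2) * ∑ i, t i * (G i j : ℂ) = 0 := by
      rw [Finset.mul_sum, ← h2]
      exact Finset.sum_congr rfl fun i _ => by ring
    have h5 : -(4 * (Real.pi : ℂ) ^ 2) ≠ 0 := by
      simp [hpi]
    have h6 := (mul_eq_zero.1 h4).resolve_left h5
    simpa [Matrix.vecMul, dotProduct] using h6
  have hdet : IsUnit (G.map (Int.cast : ℤ → ℂ)).det := by
    have : (G.map (Int.cast : ℤ → ℂ)).det = ((G.det : ℤ) : ℂ) := by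
      exact (Int.cast_det G).symm
    rw [this]
    rcases Int.isUnit_iff.1 hu with h | h <;> rw [h] <;> simp
  have h2 : t ᵥ* (G.map (Int.cast : ℤ → ℂ) * (G.map (Int.cast : ℤ → ℂ))⁻¹) = 0 := by
    rw [← Matrix.vecMul_vecMul, h1, Matrix.zero_vecMul]
  rwa [Matrix.mul_nonsing_inv _ hdet, Matrix.vecMul_one] at h2

/-- `UData` from the weak spanning property (uniqueness follows from `det G ≠ 0` and Stokes) -/
def ofWeak (span : ∀ F : TwoF Y, F.Smooth → F.Closed →
      ∃ t : Fin N → ℂ, ExactTwo (F - ∑ i, t i • (E i).L.curv))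
    (mem : ∀ L : ALB Y, ∃ k : Fin N → ℤ, ExactTwo (L.L.curv - ∑ i, (k i : ℂ) • (E i).L.curv))
    (surj : ∀ k : Fin N → ℤ, ∃ L : ALB Y, ExactTwo (L.L.curv - ∑ i, (k i : ℂ) • (E i).L.curv)) :
    UData Y N where
  E := E
  G := G
  isec_eq := hG
  unit := hu
  span F hF hc := by
    obtain ⟨t, ht⟩ := span F hF hc
    refine ⟨t, ht, fun s hs => ?_⟩
    have h1 := exact_sub ht hs
    have h2 : F - ∑ i, t i • (E i).L.curv - (F - ∑ i, s i • (E i).L.curv) =
        ∑ i, (s - t) i • (E i).L.curv := by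
      simp only [Pi.sub_apply, sub_smul, Finset.sum_sub_distrib]
      abel
    rw [h2] at h1
    exact sub_eq_zero.1 (eq_zero_of_exact hL hI E G hG hu h1)
  mem := mem
  surj := surj

end weak

end UData

end Vale.Agent.P290.H342
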