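import Vale.Agent.P290.H342.Inst
import Vale.Agent.P290.H362.Iface
import Vale.Agent.P290.H416.K3U
import Vale.Agent.P290.H416.K3FL
import Vale.Agent.P290.H445.IntK
import Vale.Agent.P290.H470.C2

/-!
# P290 (helper342): the geometry of a K3 surface

`geo Z U : Geo Z` for `U : UData Z.X N`, from Riemann-Roch and Serre duality on `Z`.
-/

set_option linter.unusedSectionVars false

open scoped Manifold ContDiff ComplexConjugate Topology
open Set

noncomputable section

namespace Vale.Agent.P290.H342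

open Vale.Agent.P267 Vale.Agent.P267.FL Vale.Agent.P267.BlockC Vale.Agent.P267.RR Vale.Agent.P267.H332
open Vale.Agent.P267.H757 Vale.Agent.P267.H821 Vale.Agent.P290.H445

section gen

variable {Y : Type} [TopologicalSpace Y] [ChartedSpace FL.C2 Y] [IsManifold 𝓘(ℂ, FL.C2) ω Y]
variable [T2Space Y] [CompactSpace Y] {N : ℕ} (U : UData Y N)

/-- the class of a norm function with curvature the Chern form of `(L, a)` -/
theorem clN_chern {ι : Type} [Fintype ι] [DecidableEq ι] {L : LB Y ι} {a : Y → Fin 2 → ℂ}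
    (ha : L.IsHol a) {N' : Y → ℝ} (h : IsNormFn FL.C2 N') (hc : cF N' = L.chern a) :
    U.clN N' = U.c1 ⟨ι, L⟩ := by
  refine U.clN_eq (nflbY Y) h ?_
  have h1 := U.c1_spec ⟨ι, L⟩
  have h2 := chern_exact ha
  rw [hc]
  exact h1.congr h2

variable [PreconnectedSpace Y]

/-- a nonzero holomorphic section gives a norm function of class `c₁` -/
theorem exists_nf_of_section {ι : Type} [Fintype ι] [DecidableEq ι] {L : LB Y ι}
    {a : Y → Fin 2 → ℂ} (ha : L.IsHol a) {s : Y → EuclideanSpace ℂ ι}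
    (hs : s ∈ Vale.Agent.P267.RR.H0 L a 0) (hne : s ≠ 0) :
    ∃ N' : Y → ℝ, IsNormFn FL.C2 N' ∧ U.clN N' = U.c1 ⟨ι, L⟩ := by
  obtain ⟨⟨h1, h2⟩, h3⟩ := (mem_H0 _ _ _).1 hs
  have h4 : IsSection L a 0 s := isSection_of_connected ha h1 h2 (fun x => congrFun h3 x) (by
    by_contra hcon
    push Not at hcon
    exact hne (funext hcon))
  exact ⟨_, h4.isNormFn_zero, clN_chern U ha h4.isNormFn_zero h4.cF_zero⟩

/-- a bundle with two independent sections gives a pencil -/
theorem exists_pen {ι : Type} [Fintype ι] [DecidableEq ι] {L : LB Y ι} {a : Y → Fin 2 → ℂ}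
    (ha : L.IsHol a) (h2 : 1 < Vale.Agent.P267.RR.h0 L a 0) :
    Nonempty (Pen (divTh U) (U.c1 ⟨ι, L⟩)) := by
  have hnt : Nontrivial (Vale.Agent.P267.RR.H0 L a 0) := Module.nontrivial_of_finrank_pos
    (R := ℂ) (by rw [Vale.Agent.P267.RR.h0] at h2; omega)
  obtain ⟨s0, hs0⟩ := exists_ne (0 : Vale.Agent.P267.RR.H0 L a 0)
  obtain ⟨s1, hs1⟩ := exists_linearIndependent_pair_of_one_lt_finrank (R := ℂ) h2 hs0
  refine ⟨Pen.ofSec (divTh U) _ (L := L) (α := a) (s0 := (s0 : Y → EuclideanSpace ℂ ι))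
    (s1 := (s1 : Y → EuclideanSpace ℂ ι)) ?_ ?_⟩
  · intro p q hpq
    have hmem : (p • (s0 : Y → EuclideanSpace ℂ ι) + q • (s1 : Y → EuclideanSpace ℂ ι)) ∈
        Vale.Agent.P267.RR.H0 L a 0 :=
      Submodule.add_mem _ (Submodule.smul_mem _ _ s0.2) (Submodule.smul_mem _ _ s1.2)
    obtain ⟨⟨h3, h4⟩, h5⟩ := (mem_H0 _ _ _).1 hmem
    refine isSection_of_connected ha h3 h4 (fun x => congrFun h5 x) ?_
    by_contra hcon
    push Not at hcon
    have h6 : p • s0 + q • s1 = 0 := by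
      apply Subtype.ext
      funext x
      exact hcon x
    have h7 := LinearIndependent.pair_iff.1 hs1 p q h6
    rcases hpq with h | h
    · exact h h7.1
    · exact h h7.2
  · intro N' hN' hc
    exact clN_chern U ha hN' hc

end gen

section K3

variable (Z : All.K3)

/-- the holomorphic two-form -/
def OmT : TwoF Z.X := ⟨Om Z, 0, 0⟩

theorem OmT_mem : OmT Z ∈ HC Z.X := by
  have h1 : Vale.Agent.P267.H469.toF (Vale.Agent.P290.H416.OmL Z) = OmT Z :=
    Vale.Agent.P290.H416.toF_OmL Z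
  have h2 := (Vale.Agent.P290.H416.closed_iff (F := Vale.Agent.P290.H416.OmL Z)).1
    (Vale.Agent.P290.H416.D2_OmL Z)
  have h3 := Vale.Agent.P267.H469.toF_smooth (Vale.Agent.P290.H416.OmL Z)
  rw [h1] at h2 h3
  exact mem_HC_iff.2 ⟨h3, h2⟩

variable {Z} {N : ℕ} (U : UData Z.X N)

/-- the periods `∫ Om ∧ comb v` -/
def perU : (Fin N → ℤ) →+ ℂ :=
  AddMonoidHom.mk' (fun v => pair (OmT Z) (U.comb v)) fun v w => by
    rw [pair_comm, U.comb_add, pair_add_left intAx (U.comb_mem (lbFacts Z.X) v).1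
      (U.comb_mem (lbFacts Z.X) w).1 (OmT_mem Z).1, pair_comm, pair_comm (U.comb w)]

theorem perU_apply (v : Fin N → ℤ) : perU U v = pair (OmT Z) (U.comb v) := rfl

/-- the period is computed by every form in the class -/
theorem pair_OmT {F : TwoF Z.X} (hF : F.Smooth) {v : Fin N → ℤ} (h : U.HasCl F v) :
    pair (OmT Z) F = perU U v := by
  have h1 := pair_exact intAx h (OmT_mem Z)
  have h2 := (U.comb_mem (lbFacts Z.X) v).1
  have h3 : F = (F - U.comb v) + U.comb v := by abel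
  have h4 : (F - U.comb v).Smooth := by
    have := TwoF_smooth_smul (-1) h2
    rw [neg_one_smul] at this
    rw [sub_eq_add_neg]
    exact TwoF_smooth_add hF this
  rw [perU_apply, pair_comm]
  conv_lhs => rw [h3]
  rw [pair_add_left intAx h4 h2 (OmT_mem Z).1, h1, zero_add, pair_comm]

theorem wedge_OmT (F : TwoF Z.X) : (OmT Z).wedge F = fun x => Om Z x * F.f02 x := by
  funext x
  simp [TwoF.wedge, OmT]

theorem perU_clN {N' : Z.X → ℝ} (h : IsNormFn FL.C2 N') : perU U (U.clN N') = 0 := by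
  rw [← pair_OmT U (cF_smooth h) (U.clN_spec (nflbY Z.X) h), pair, wedge_OmT]
  have : (fun x => Om Z x * (cF N').f02 x) = fun _ => (0 : ℂ) := by
    funext x
    simp [cF]
  rw [this]
  exact H445.intX_zero Z

theorem dbarSolve : DbarSolve Z.X := fun _ ha h0 => Vale.Agent.P290.H416.dbar_solve ha h0

theorem h01 : H445.H01 Z := fun _ ha h0 => Vale.Agent.P290.H416.dbar_solve ha h0

theorem exists_pen_of_rr (hS : SerreStmt Z.X) (hR : RRStmt Z.X) (v : Fin N → ℤ)
    (hσ : perU U v = 0) (hvv : 0 ≤ U.B v v)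
    (hv : ∀ N' : Z.X → ℝ, IsNormFn FL.C2 N' → U.clN N' ≠ -v) :
    Nonempty (Pen (divTh U) v) := by
  obtain ⟨L, hL⟩ := U.exists_c1 (lbFacts Z.X) v
  subst hL
  have h0 : intX (fun x => Om Z x * L.L.F02 x) = 0 := by
    rw [← hσ, ← pair_OmT U L.L.curv_smooth (U.c1_spec L), pair, wedge_OmT]
    rfl
  obtain ⟨a, n, ha, h1, h2⟩ := rr_of_orth Z hS hR h01 L.L L.L.reg_F02 h0
  have h3 := U.isec_c1 intAx (lbFacts Z.X) L L
  rw [h1] at h3
  have h4 : (2 * n : ℤ) = U.B (U.c1 L) (U.c1 L) := by exact_mod_cast h3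
  have h5 : Vale.Agent.P267.RR.h0 L.L.dual (-a) 0 = 0 := by
    by_contra hne
    have hnt : Nontrivial (Vale.Agent.P267.RR.H0 L.L.dual (-a) 0) :=
      Module.nontrivial_of_finrank_pos (R := ℂ) (Nat.pos_of_ne_zero hne)
    obtain ⟨s, hs⟩ := exists_ne (0 : Vale.Agent.P267.RR.H0 L.L.dual (-a) 0)
    obtain ⟨N', hN', hcl⟩ := exists_nf_of_section U ha.dual s.2 (fun h => hs (Subtype.ext h))
    refine hv N' hN' ?_
    rw [hcl]
    exact U.c1_dual (lbFacts Z.X) L
  rw [h5] at h2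
  exact exists_pen U ha (by omega)

/-- **The geometry of a K3 surface.** -/
def geo (hF : FiniteStmt Z.X) (hS : SerreStmt Z.X) (hR : RRStmt Z.X) : H362.Geo Z where
  T := divTh U
  σ := perU U
  σ_cl _ h := perU_clN U h
  weight _ _ _ _ h := clN_of_weight U h
  hz _ h h0 := ne_zero_of_clN U dbarSolve h h0
  self C := by
    obtain ⟨n, h1, h2⟩ := H470.self_ge Z hF hS hR h01 C.prime C.lb
    have h3 := U.isec_c1 intAx (lbFacts Z.X) ⟨_, C.lb.L⟩ ⟨_, C.lb.L⟩
    have h4 : U.clN (H470.NC C) = U.c1 ⟨_, C.lb.L⟩ := by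
      refine clN_chern U C.lb.hol (H470.NC_nf C) ?_
      have hd : Dense {x | C.lb.s x ≠ 0} := by
        refine (H470.NC_nf C).dense_ne_zero.mono ?_
        intro x hx h0
        apply hx
        show ‖C.lb.s x‖ ^ 2 = 0
        rw [h0]
        simp
      exact (lbnf C.lb.hol C.lb.s_reg C.lb.s_sec C.lb.s_hol hd).2
    show -2 ≤ U.B (U.clN (H470.NC C)) (U.clN (H470.NC C))
    rw [h4]
    rw [h1] at h3
    have h5 : (2 * n : ℤ) = U.B (U.c1 ⟨_, C.lb.L⟩) (U.c1 ⟨_, C.lb.L⟩) := by exact_mod_cast h3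
    omega
  rr v h1 h2 h3 := by
    obtain ⟨P⟩ := exists_pen_of_rr U hS hR v h1 h2 h3
    exact ⟨P, P.dv_ne fun _ h h0 => ne_zero_of_clN U dbarSolve h h0⟩

end K3

end Vale.Agent.P290.H342
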