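import Vale.Agent.P290.H342.GeoInst
import Vale.Agent.P290.H722.Neg
import Vale.Agent.P290.H362.Final

/-!
# P290 (helper342): elliptic K3 surfaces with `UData`, from Riemann-Roch and the twists
-/

set_option linter.unusedSectionVars false

open scoped Manifold ContDiff ComplexConjugate Topology
open Set

noncomputable section

namespace Vale.Agent.P290.H342

open Vale.Agent.P267 Vale.Agent.P267.FL Vale.Agent.P267.BlockC Vale.Agent.P267.RR
open Vale.Agent.P267.H332 Vale.Agent.P267.H757 Vale.Agent.P290.H445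

variable {Z : All.K3} {N : ℕ} (U : UData Z.X N)

theorem isLat_geo (hF : FiniteStmt Z.X) (hS : SerreStmt Z.X) (hR : RRStmt Z.X)
    (heven : ∀ k, Even (U.B k k)) : H362.IsLat (geo U hF hS hR) where
  finite := by
    show Module.Finite ℤ (Fin N → ℤ)
    infer_instance
  free := by
    show Module.Free ℤ (Fin N → ℤ)
    infer_instance
  unimod f := by
    obtain ⟨k, hk⟩ := U.unimod f
    exact ⟨k, fun y => (hk y).symm⟩
  even := heven

theorem h02 (hS : SerreStmt Z.X) : H416.H02 Z :=
  fun _ hb h0 => exists_dbar1 Z hS (intFactsK Z) hb h0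

/-- helper722's record, for `geo` -/
def uGeo (hF : FiniteStmt Z.X) (hS : SerreStmt Z.X) (hR : RRStmt Z.X) :
    H722.UGeo (geo U hF hS hR) U where
  τ := AddEquiv.refl _
  B _ _ := rfl
  cl _ h := U.clN_spec (nflbY Z.X) h
  σ _ := rfl

/-- an elliptic K3 surface with `UData` of even form is Oka, if its twists have their lattices -/
theorem isOka_of_uData (hX : H95.Elliptic Z) (hF : FiniteStmt Z.X) (hS : SerreStmt Z.X)
    (hR : RRStmt Z.X) (heven : ∀ k, Even (U.B k k))
    (hTw : ∀ (e : Fin N → ℤ) (A : H362.Ell (geo U hF hS hR).T e), perU U e = 0 →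
      H362.TwLat (geo U hF hS hR) e A.π) : All.IsOka Z.X :=
  H362.isOka_of_elliptic Z hX (geo U hF hS hR) (isLat_geo U hF hS hR heven)
    (H722.negInput (uGeo U hF hS hR) (h02 hS))
    (fun e c A h1 h2 => H722.indep_ell (uGeo U hF hS hR) (h02 hS) e c A h1 h2)
    hTw

end Vale.Agent.P290.H342
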